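import Mathlib

/-!
P052, regular simplices: the scalar inequality behind the Voronoi partition of a set containing the
vertices of a regular simplex.
-/

namespace Vale.Agent.P052.R3.H547

open Finset

theorem le_of_mul_nonneg {p ν c : ℝ} (hp : 0 < p) (hc : 0 ≤ c) (h : c ≤ p * (ν - p)) : p ≤ ν := by
  by_contra hn
  push Not at hn
  have : p * (ν - p) < 0 := mul_neg_of_pos_of_neg hp (by linarith)
  linarith

theorem two_le_add {p q : ℝ} (hp : 0 ≤ p) (hq : 0 ≤ q) (h1 : 1 ≤ p * q) : 2 ≤ p + q := by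
  have : (2 : ℝ) ^ 2 ≤ (p + q) ^ 2 := by
    have := sq_nonneg (p - q)
    have e : (p + q) ^ 2 = (p - q) ^ 2 + 4 * (p * q) := by ring
    rw [e]; linarith
  exact (pow_le_pow_iff_left₀ (by norm_num) (by linarith) two_ne_zero).mp this

theorem add_le {ν p q : ℝ} (hν : ν ^ 2 ≤ 8) (hpν : p ≤ ν) (hqν : q ≤ ν)
    (h2 : 2 ≤ (ν - p) * (ν - q)) : p + q ≤ ν := by
  by_contra hc
  push Not at hc
  have e1 : (ν - p) * (ν - q) ≤ (ν - (p + q) / 2) ^ 2 := by
    have := sq_nonneg (p - q)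
    have e : (ν - (p + q) / 2) ^ 2 = (ν - p) * (ν - q) + (p - q) ^ 2 / 4 := by ring
    rw [e]; linarith
  have e2 : 0 ≤ ν - (p + q) / 2 := by linarith
  have e3 : ν - (p + q) / 2 < ν / 2 := by linarith
  have e4 : (ν - (p + q) / 2) ^ 2 < (ν / 2) ^ 2 := pow_lt_pow_left₀ e3 e2 (by norm_num)
  have e5 : (ν / 2) ^ 2 = ν ^ 2 / 4 := by ring
  rw [e5] at e4
  linarith

theorem tangent {h p : ℝ} (hp : 0 < p) (g4 : h * (1 + h) ≤ p * (3 - p)) :
    h ≤ (p + 2) / 3 := by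
  by_contra hc
  push Not at hc
  have e : (p + 2) / 3 * (1 + (p + 2) / 3) < h * (1 + h) :=
    mul_lt_mul'' hc (by linarith) (by positivity) (by positivity)
  have := sq_nonneg (p - 1)
  nlinarith

theorem case_small {p q h k : ℝ} (hp0 : 0 < p) (hk : 0 ≤ k) (hh : 0 ≤ h)
    (h1 : 1 ≤ p * q) (hp3 : p < 3) (g2 : h + k + 2 ≤ (3 - p) * (3 - q))
    (hs1 : (3 - p - q) ^ 2 ≤ 1) (hH : (3 - p) * (3 - q) - 2 ≤ (p + 2) / 3) :
    h ^ 2 + k ^ 2 + (3 - p - q) ^ 2 < 3 := by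
  have hpq : 3 * p ^ 2 - 8 * p + 3 ≤ 0 := by
    have a : 2 * p ≤ p * ((3 - p) * (3 - q)) := by
      have : 2 ≤ (3 - p) * (3 - q) := by linarith
      nlinarith
    have b : p * ((3 - p) * (3 - q)) = (3 - p) * (3 * p - p * q) := by ring
    have c : (3 - p) * (3 * p - p * q) ≤ (3 - p) * (3 * p - 1) :=
      mul_le_mul_of_nonneg_left (by linarith) (by linarith)
    linarith [mul_comm p p, a, b, c, sq p]
  have e1 : h + k ≤ (p + 2) / 3 := by linarith
  have hp2 : p ≤ 2.22 := by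
    by_contra hc
    push Not at hc
    nlinarith
  have e0 : h + k ≤ 1.41 := by linarith
  have e2 : (h + k) ^ 2 ≤ 1.41 ^ 2 := pow_le_pow_left₀ (by linarith) e0 2
  have e3 : (h + k) ^ 2 = h ^ 2 + k ^ 2 + 2 * (h * k) := by ring
  have e4 : 0 ≤ h * k := mul_nonneg hh hk
  norm_num at e2
  linarith

theorem sq_sum_le {h k m H : ℝ} (hk : 0 ≤ k) (hkh : k ≤ h) (hm : h ≤ m) (hH : h + k ≤ H) :
    h ^ 2 + k ^ 2 ≤ m ^ 2 + (H - m) ^ 2 := by
  by_cases hc : k ≤ H - m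
  · have a1 : h ^ 2 ≤ m ^ 2 := pow_le_pow_left₀ (by linarith) hm 2
    have a2 : k ^ 2 ≤ (H - m) ^ 2 := pow_le_pow_left₀ hk hc 2
    linarith
  · push Not at hc
    have a1 : k ^ 2 ≤ (H - h) ^ 2 := pow_le_pow_left₀ hk (by linarith) 2
    have a2 : 0 ≤ (m - h) * (m - (H - h)) := mul_nonneg (by linarith) (by linarith)
    have a3 : m ^ 2 + (H - m) ^ 2 = h ^ 2 + (H - h) ^ 2 + 2 * ((m - h) * (m - (H - h))) := by ring
    linarith

theorem case_large {p q h k : ℝ} (hp0 : 0 < p) (hk : 0 ≤ k) (hkh : k ≤ h)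
    (h1 : 1 ≤ p * q) (hs : p + q ≤ 3) (hp3 : p < 3) (g2 : h + k + 2 ≤ (3 - p) * (3 - q))
    (hm : h ≤ (p + 2) / 3) (hH : (p + 2) / 3 < (3 - p) * (3 - q) - 2) :
    h ^ 2 + k ^ 2 + (3 - p - q) ^ 2 ≤ 3 := by
  set m : ℝ := (p + 2) / 3 with hmdef
  set H : ℝ := (3 - p) * (3 - q) - 2 with hHdef
  have e1 : h ^ 2 + k ^ 2 ≤ m ^ 2 + (H - m) ^ 2 := sq_sum_le hk hkh hm (by linarith)
  obtain ⟨r, hr⟩ : ∃ r : ℝ, p * r = 1 := ⟨1 / p, by field_simp⟩
  have hrq : r ≤ q := by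
    by_contra hc
    push Not at hc
    have : p * q < p * r := mul_lt_mul_of_pos_left hc hp0
    linarith
  set R : ℝ := (3 - p) * (3 - r) - 2 with hRdef
  have hRH : H ≤ R := by
    have : (3 - p) * (3 - q) ≤ (3 - p) * (3 - r) :=
      mul_le_mul_of_nonneg_left (by linarith) (by linarith)
    linarith
  have e2 : m ^ 2 + (H - m) ^ 2 + (3 - p - q) ^ 2 ≤ m ^ 2 + (R - m) ^ 2 + (3 - p - r) ^ 2 := by
    have a1 : (H - m) ^ 2 ≤ (R - m) ^ 2 := pow_le_pow_left₀ (by linarith) (by linarith) 2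
    have a2 : (3 - p - q) ^ 2 ≤ (3 - p - r) ^ 2 := pow_le_pow_left₀ (by linarith) (by linarith) 2
    linarith
  have hRm : m < R := by linarith
  have c : p * R = 8 * p - 3 * p ^ 2 - 3 := by
    rw [hRdef]
    linear_combination (3 - p) * (-1) * hr
  have c2 : p * m = (p ^ 2 + 2 * p) / 3 := by rw [hmdef]; ring
  have c3 : p * (3 - p - r) = 3 * p - p ^ 2 - 1 := by linear_combination (-1) * hr
  have b1 : 10 * p ^ 2 - 22 * p + 9 ≤ 0 := by
    have : p * m ≤ p * R := mul_le_mul_of_nonneg_left hRm.le hp0.le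
    rw [c, c2] at this
    linarith
  have b2 : 11 * p ^ 2 - 27 * p + 9 ≤ 0 := by linarith
  have b3 : 9 * p ^ 2 * (m ^ 2 + (R - m) ^ 2 + (3 - p - r) ^ 2 - 3) =
      10 * (p - 1) ^ 2 * (11 * p ^ 2 - 27 * p + 9) := by
    have : 9 * p ^ 2 * (m ^ 2 + (R - m) ^ 2 + (3 - p - r) ^ 2 - 3) =
        9 * ((p * m) ^ 2 + (p * R - p * m) ^ 2 + (p * (3 - p - r)) ^ 2 - 3 * p ^ 2) := by ring
    rw [this, c, c2, c3]
    ring
  have b4 : 10 * (p - 1) ^ 2 * (11 * p ^ 2 - 27 * p + 9) ≤ 0 :=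
    mul_nonpos_of_nonneg_of_nonpos (by positivity) b2
  have b5 : m ^ 2 + (R - m) ^ 2 + (3 - p - r) ^ 2 - 3 ≤ 0 := by
    by_contra hc
    push Not at hc
    have := mul_pos (by positivity : 0 < 9 * p ^ 2) hc
    linarith
  linarith

theorem real_core_aux {ν p q h k : ℝ} (hν : ν ^ 2 ≤ 8) (hp : 0 ≤ p) (hq : 0 ≤ q)
    (hk : 0 ≤ k) (hkh : k ≤ h)
    (h1 : 1 ≤ p * q) (h2 : h + k + 2 ≤ (ν - p) * (ν - q))
    (h3 : 3 ≤ h ^ 2 + k ^ 2 + (ν - p - q) ^ 2)
    (h4 : h * (1 + h) ≤ p * (ν - p)) (h5 : k * (1 + k) ≤ q * (ν - q)) : False := by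
  have hh : 0 ≤ h := hk.trans hkh
  have hp0 : 0 < p := by
    rcases hp.eq_or_lt with h | h
    · rw [← h] at h1; linarith
    · exact h
  have hq0 : 0 < q := by
    rcases hq.eq_or_lt with h | h
    · rw [← h] at h1; linarith
    · exact h
  have hpν : p ≤ ν := le_of_mul_nonneg hp0 (by positivity) h4
  have hqν : q ≤ ν := le_of_mul_nonneg hq0 (by positivity) h5
  have hν3 : ν < 3 := by
    by_contra hc
    push Not at hc
    have : (3 : ℝ) ^ 2 ≤ ν ^ 2 := pow_le_pow_left₀ (by norm_num) hc 2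
    norm_num at this
    linarith
  have hs : p + q ≤ ν := add_le hν hpν hqν (by linarith)
  have hs2 : 2 ≤ p + q := two_le_add hp hq h1
  have g2 : h + k + 2 ≤ (3 - p) * (3 - q) := by
    have : (ν - p) * (ν - q) ≤ (3 - p) * (3 - q) :=
      mul_le_mul (by linarith) (by linarith) (by linarith) (by linarith)
    linarith
  have g3 : 3 < h ^ 2 + k ^ 2 + (3 - p - q) ^ 2 := by
    have : (ν - p - q) ^ 2 < (3 - p - q) ^ 2 :=
      pow_lt_pow_left₀ (by linarith) (by linarith) (by norm_num)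
    linarith
  have g4 : h * (1 + h) ≤ p * (3 - p) := by
    have : p * (ν - p) ≤ p * (3 - p) := mul_le_mul_of_nonneg_left (by linarith) hp
    linarith
  have hm : h ≤ (p + 2) / 3 := tangent hp0 g4
  have hs1 : (3 - p - q) ^ 2 ≤ 1 := by
    have a : 3 - p - q ≤ 1 := by linarith
    have b : 0 ≤ 3 - p - q := by linarith
    have := pow_le_pow_left₀ b a 2
    rw [one_pow] at this
    exact this
  by_cases hH : (3 - p) * (3 - q) - 2 ≤ (p + 2) / 3
  · have := case_small hp0 hk hh h1 (by linarith) g2 hs1 hH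
    linarith
  · push Not at hH
    have := case_large hp0 hk hkh h1 (by linarith) (by linarith) g2 hm hH
    linarith

/-- The scalar inequality: there are no solutions for `ν² ≤ 8`. -/
theorem real_core {ν p q h k : ℝ} (hν : ν ^ 2 ≤ 8) (hp : 0 ≤ p) (hq : 0 ≤ q)
    (hh : 0 ≤ h) (hk : 0 ≤ k)
    (h1 : 1 ≤ p * q) (h2 : h + k + 2 ≤ (ν - p) * (ν - q))
    (h3 : 3 ≤ h ^ 2 + k ^ 2 + (ν - p - q) ^ 2)
    (h4 : h * (1 + h) ≤ p * (ν - p)) (h5 : k * (1 + k) ≤ q * (ν - q)) : False := by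
  rcases le_total k h with hkh | hkh
  · exact real_core_aux hν hp hq hk hkh h1 h2 h3 h4 h5
  · refine real_core_aux (p := q) (q := p) (h := k) (k := h) hν hq hp hh hkh (by linarith) ?_ ?_
      h5 h4
    · linarith
    · have : (ν - q - p) ^ 2 = (ν - p - q) ^ 2 := by ring
      rw [this]; linarith

section sums

variable {N : ℕ}

/-- Facts on the numbers `e j = t j + κ`, `κ = (1 - T) / 2`. -/
theorem one_point {t : Fin N → ℝ} {κ : ℝ} (hκ : κ = (1 - ∑ l, t l ^ 2) / 2) (ht : ∑ j, t j = 1)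
    (i : Fin N) (hx : ∀ j, 0 ≤ t j + κ) (hmx : ∀ j, t j ≤ t i) :
    0 ≤ κ ∧ 0 < t i + κ ∧ t i + κ ≤ 1 ∧ ∑ j, (t j + κ) = 1 + N * κ ∧
      ∑ j, (t j + κ) ^ 2 = 1 + N * κ ^ 2 ∧ 1 + N * κ ^ 2 ≤ (t i + κ) * (1 + N * κ) := by
  have hT : ∑ l, t l ^ 2 = 1 - 2 * κ := by rw [hκ]; ring
  have h1 : ∑ j, (t j + κ) = 1 + N * κ := by
    rw [sum_add_distrib, ht, sum_const, card_univ, Fintype.card_fin, nsmul_eq_mul]
  have h2 : ∑ j, (t j + κ) ^ 2 = 1 + N * κ ^ 2 := by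
    have : ∀ j, (t j + κ) ^ 2 = t j ^ 2 + 2 * κ * t j + κ ^ 2 := fun j => by ring
    rw [sum_congr rfl fun j _ => this j, sum_add_distrib, sum_add_distrib, ← mul_sum, ht, hT,
      sum_const, card_univ, Fintype.card_fin, nsmul_eq_mul]
    ring
  have hκ0 : 0 ≤ κ := by
    by_contra hc
    push Not at hc
    have hpos : ∀ j, 0 ≤ t j := fun j => by linarith [hx j]
    have hle : ∀ j, t j ≤ 1 := fun j => by
      rw [← ht]
      exact single_le_sum (f := t) (fun l _ => hpos l) (mem_univ j)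
    have : ∑ l, t l ^ 2 ≤ ∑ l, t l := sum_le_sum fun l _ => by
      have := mul_le_mul_of_nonneg_left (hle l) (hpos l)
      rw [sq]; linarith
    rw [hT, ht] at this
    linarith
  have h3 : 1 + N * κ ^ 2 ≤ (t i + κ) * (1 + N * κ) := by
    rw [← h2, ← h1, mul_sum]
    refine sum_le_sum fun j _ => ?_
    rw [sq]
    exact mul_le_mul_of_nonneg_right (by linarith [hmx j]) (hx j)
  have hN0 : (0 : ℝ) ≤ N := Nat.cast_nonneg N
  have h4 : 0 < t i + κ := by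
    by_contra hc
    push Not at hc
    have a : (t i + κ) * (1 + N * κ) ≤ 0 := mul_nonpos_of_nonpos_of_nonneg hc (by positivity)
    have b : 0 ≤ N * κ ^ 2 := by positivity
    linarith
  refine ⟨hκ0, h4, ?_, h1, h2, h3⟩
  have h5 : t i ^ 2 ≤ ∑ l, t l ^ 2 :=
    single_le_sum (f := fun l => t l ^ 2) (fun l _ => sq_nonneg _) (mem_univ i)
  rw [hT] at h5
  have := sq_nonneg (t i - 1)
  nlinarith

/-- **The scalar core.** `t` and `s` are the barycentric coordinates of `x` and `y` with respect to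
the `N ≤ 8` vertices of a regular simplex of edge `1`, `t j + (1 - T) / 2 = 1 - |x - v_j|²`. -/
theorem core (hN8 : N ≤ 8) (t s : Fin N → ℝ) (ht : ∑ j, t j = 1)
    (hs : ∑ j, s j = 1) (i : Fin N)
    (hx : ∀ j, 0 ≤ t j + (1 - ∑ l, t l ^ 2) / 2)
    (hy : ∀ j, 0 ≤ s j + (1 - ∑ l, s l ^ 2) / 2)
    (hmx : ∀ j, t j ≤ t i) (hmy : ∀ j, s j ≤ s i) :
    (1 / 2) * ∑ j, (t j - s j) ^ 2 < 1 := by
  obtain ⟨κ, hκ⟩ : ∃ κ, κ = (1 - ∑ l, t l ^ 2) / 2 := ⟨_, rfl⟩
  obtain ⟨w, hw⟩ : ∃ w, w = (1 - ∑ l, s l ^ 2) / 2 := ⟨_, rfl⟩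
  rw [← hκ] at hx
  rw [← hw] at hy
  obtain ⟨k0, A0, A1, sA, sA2, cA⟩ := one_point hκ ht i hx hmx
  obtain ⟨w0, B0, B1, sB, sB2, cB⟩ := one_point hw hs i hy hmy
  have hT : ∑ l, t l ^ 2 = 1 - 2 * κ := by rw [hκ]; ring
  have hS : ∑ l, s l ^ 2 = 1 - 2 * w := by rw [hw]; ring
  by_contra hc
  push Not at hc
  obtain ⟨A, hA⟩ : ∃ A, A = t i + κ := ⟨_, rfl⟩
  obtain ⟨B, hB⟩ : ∃ B, B = s i + w := ⟨_, rfl⟩
  obtain ⟨E, hE⟩ : ∃ E, E = ∑ j, (t j + κ) * (s j + w) := ⟨_, rfl⟩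
  rw [← hA] at A0 A1 cA
  rw [← hB] at B0 B1 cB
  have hE' : E = ∑ j, t j * s j + κ + w + N * κ * w := by
    have : ∀ j, (t j + κ) * (s j + w) = t j * s j + w * t j + κ * s j + κ * w := fun j => by ring
    rw [hE, sum_congr rfl fun j _ => this j, sum_add_distrib, sum_add_distrib, sum_add_distrib,
      ← mul_sum, ← mul_sum, ht, hs, sum_const, card_univ, Fintype.card_fin, nsmul_eq_mul]
    ring
  have hd : ∑ j, (t j - s j) ^ 2 = 2 - 2 * κ - 2 * w - 2 * ∑ j, t j * s j := by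
    have : ∀ j, (t j - s j) ^ 2 = t j ^ 2 + s j ^ 2 - 2 * (t j * s j) := fun j => by ring
    rw [sum_congr rfl fun j _ => this j, sum_sub_distrib, sum_add_distrib, ← mul_sum, hT, hS]
    ring
  have hEN : E ≤ N * κ * w := by linarith
  have c1 : A * B ≤ E := by
    rw [hE, hA, hB]
    exact single_le_sum (f := fun j => (t j + κ) * (s j + w))
      (fun j _ => mul_nonneg (hx j) (hy j)) (mem_univ i)
  have c2 : 0 ≤ N * A * B - A * (1 + N * w) - B * (1 + N * κ) + E := by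
    have h : 0 ≤ ∑ j, (A - (t j + κ)) * (B - (s j + w)) := sum_nonneg fun j _ =>
      mul_nonneg (by linarith [hmx j]) (by linarith [hmy j])
    have : ∀ j, (A - (t j + κ)) * (B - (s j + w)) =
        A * B - A * (s j + w) - B * (t j + κ) + (t j + κ) * (s j + w) := fun j => by ring
    have a1 : ∑ j, A * (s j + w) = A * (1 + N * w) := by rw [← mul_sum, sB]
    have a2 : ∑ j, B * (t j + κ) = B * (1 + N * κ) := by rw [← mul_sum, sA]
    rw [sum_congr rfl fun j _ => this j, sum_add_distrib, sum_sub_distrib, sum_sub_distrib,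
      a1, a2, ← hE, sum_const, card_univ, Fintype.card_fin, nsmul_eq_mul] at h
    linarith
  have c3 : (A * B) ^ 2 ≤ B ^ 2 * (1 + N * κ ^ 2) + A ^ 2 * (1 + N * w ^ 2) + N * (A * B) ^ 2 +
      2 * A * B * E - 2 * A * B ^ 2 * (1 + N * κ) - 2 * A ^ 2 * B * (1 + N * w) := by
    have h : (A * B) ^ 2 ≤ ∑ j, (B * (t j + κ) + A * (s j + w) - A * B) ^ 2 := by
      have h0 : (B * (t i + κ) + A * (s i + w) - A * B) ^ 2 = (A * B) ^ 2 := by
        rw [← hA, ← hB]; ring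
      rw [← h0]
      exact single_le_sum (f := fun j => (B * (t j + κ) + A * (s j + w) - A * B) ^ 2)
        (fun j _ => sq_nonneg _) (mem_univ i)
    have : ∀ j, (B * (t j + κ) + A * (s j + w) - A * B) ^ 2 =
        B ^ 2 * (t j + κ) ^ 2 + A ^ 2 * (s j + w) ^ 2 + (A * B) ^ 2 +
          2 * A * B * ((t j + κ) * (s j + w)) - 2 * A * B ^ 2 * (t j + κ) -
          2 * A ^ 2 * B * (s j + w) := fun j => by ring
    have a1 : ∑ j, B ^ 2 * (t j + κ) ^ 2 = B ^ 2 * (1 + N * κ ^ 2) := by rw [← mul_sum, sA2]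
    have a2 : ∑ j, A ^ 2 * (s j + w) ^ 2 = A ^ 2 * (1 + N * w ^ 2) := by rw [← mul_sum, sB2]
    have a3 : ∑ j, 2 * A * B * ((t j + κ) * (s j + w)) = 2 * A * B * E := by rw [← mul_sum, hE]
    have a4 : ∑ j, 2 * A * B ^ 2 * (t j + κ) = 2 * A * B ^ 2 * (1 + N * κ) := by
      rw [← mul_sum, sA]
    have a5 : ∑ j, 2 * A ^ 2 * B * (s j + w) = 2 * A ^ 2 * B * (1 + N * w) := by
      rw [← mul_sum, sB]
    rw [sum_congr rfl fun j _ => this j, sum_sub_distrib, sum_sub_distrib, sum_add_distrib,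
      sum_add_distrib, sum_add_distrib, a1, a2, a3, a4, a5, sum_const, card_univ,
      Fintype.card_fin, nsmul_eq_mul] at h
    exact h
  have hAB : 0 < A * B := mul_pos A0 B0
  have hν : √(N : ℝ) ^ 2 = N := Real.sq_sqrt (Nat.cast_nonneg N)
  have hN8' : (N : ℝ) ≤ 8 := by exact_mod_cast hN8
  obtain ⟨ν, hνd⟩ : ∃ ν, ν = √(N : ℝ) := ⟨_, rfl⟩
  rw [← hνd] at hν
  have hν0 : 0 ≤ ν := by rw [hνd]; exact Real.sqrt_nonneg _
  refine real_core (ν := ν) (p := ν * κ / A) (q := ν * w / B) (h := 1 / A - 1) (k := 1 / B - 1)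
    (by rw [hν]; exact hN8') (by positivity) (by positivity) ?_ ?_ ?_ ?_ ?_ ?_ ?_
  · rw [sub_nonneg, le_div_iff₀ A0]; linarith
  · rw [sub_nonneg, le_div_iff₀ B0]; linarith
  · have e : ν * κ / A * (ν * w / B) = (N * κ * w) / (A * B) := by
      rw [← hν]; field_simp
    rw [e, le_div_iff₀ hAB]
    linarith
  · have e : (ν - ν * κ / A) * (ν - ν * w / B) = N * ((A - κ) * (B - w)) / (A * B) := by
      rw [← hν]; field_simp
    have e2 : 1 / A - 1 + (1 / B - 1) + 2 = (A + B) / (A * B) := by field_simp; ring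
    rw [e, e2]
    refine div_le_div_of_nonneg_right ?_ hAB.le
    linarith
  · have e : (1 / A - 1) ^ 2 + (1 / B - 1) ^ 2 + (ν - ν * κ / A - ν * w / B) ^ 2 =
        ((1 - A) ^ 2 * B ^ 2 + (1 - B) ^ 2 * A ^ 2 + N * (A * B - κ * B - w * A) ^ 2) /
          (A * B) ^ 2 := by
      rw [← hν]; field_simp
    rw [e, le_div_iff₀ (by positivity)]
    have : 2 * A * B * E ≤ 2 * A * B * (N * κ * w) :=
      mul_le_mul_of_nonneg_left hEN (by positivity)
    linarith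
  · have e : ν * κ / A * (ν - ν * κ / A) = (N * κ * (A - κ)) / A ^ 2 := by
      rw [← hν]; field_simp
    have e2 : (1 / A - 1) * (1 + (1 / A - 1)) = (1 - A) / A ^ 2 := by field_simp; ring
    rw [e, e2]
    refine div_le_div_of_nonneg_right ?_ (by positivity)
    linarith
  · have e : ν * w / B * (ν - ν * w / B) = (N * w * (B - w)) / B ^ 2 := by
      rw [← hν]; field_simp
    have e2 : (1 / B - 1) * (1 + (1 / B - 1)) = (1 - B) / B ^ 2 := by field_simp; ring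
    rw [e, e2]
    refine div_le_div_of_nonneg_right ?_ (by positivity)
    linarith

end sums

end Vale.Agent.P052.R3.H547
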